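import Mathlib

/-!
P034, core tools: the conditional weight `psi`, the generation measure of unions of sampled
traces, the sampler bound, randomized rounding, and the covering of one level of cores.
-/

open Finset

namespace Vale.Agent.P034

variable {X : Type*} [Fintype X] [DecidableEq X]

/-- Weight of the sets of `h` after fixing `W`, the rest being present with probability `q`. -/
noncomputable def psi (h : Finset X → ℝ) (q : ℝ) (W : Finset X) : ℝ :=
  ∑ S, h S * q ^ #(S \ W)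

/-- Total cost of a family. -/
noncomputable def cost (c : ℝ) (𝒢 : Finset (Finset X)) : ℝ := ∑ T ∈ 𝒢, c ^ #T

lemma psi_mono {h : Finset X → ℝ} (hh : ∀ S, 0 ≤ h S) {q q' : ℝ} (hq : 0 ≤ q) (hqq : q ≤ q')
    (W : Finset X) : psi h q W ≤ psi h q' W :=
  sum_le_sum fun S _ => mul_le_mul_of_nonneg_left (pow_le_pow_left₀ hq hqq _) (hh S)

lemma psi_double {h : Finset X → ℝ} (hh : ∀ S, 0 ≤ h S) {D : ℕ}
    (hD : ∀ S, h S ≠ 0 → #S ≤ D) {q q' : ℝ} (hq' : 0 ≤ q') (hqq : q' ≤ 2 * q)
    (W : Finset X) : psi h q' W ≤ 2 ^ D * psi h q W := by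
  rw [psi, psi, mul_sum]
  refine sum_le_sum fun S _ => ?_
  rcases eq_or_ne (h S) 0 with hS | hS
  · simp [hS]
  have hc : #(S \ W) ≤ D := (card_le_card sdiff_subset).trans (hD S hS)
  have hq : 0 ≤ q := by linarith
  calc h S * q' ^ #(S \ W) ≤ h S * (2 ^ #(S \ W) * q ^ #(S \ W)) := by
        rw [← mul_pow]; exact mul_le_mul_of_nonneg_left (pow_le_pow_left₀ hq' hqq _) (hh S)
    _ ≤ h S * (2 ^ D * q ^ #(S \ W)) := by
        have := pow_le_pow_right₀ (one_le_two : (1 : ℝ) ≤ 2) hc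
        exact mul_le_mul_of_nonneg_left
          (mul_le_mul_of_nonneg_right this (pow_nonneg hq _)) (hh S)
    _ = 2 ^ D * (h S * q ^ #(S \ W)) := by ring

open Classical in
/-- Weight with which `T` is produced from `W` by adding traces at most `k` times, stopping at
the first set with property `stop`, and continuing only while `psi` at `q + d` is at most
`ρ * θ`. -/
noncomputable def gen (h : Finset X → ℝ) (q d θ ρ : ℝ) (stop : Finset X → Prop) :
    ℕ → Finset X → Finset X → ℝ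
  | 0, W, T => if stop W ∧ T = W then 1 else 0
  | k + 1, W, T =>
    if stop W then (if T = W then 1 else 0)
    else if psi h (q + d) W ≤ ρ * θ then
      ∑ S, h S / θ * ∑ B ∈ (S \ W).powerset, q ^ (#(S \ W) - #B) * gen h q d θ ρ stop k (W ∪ B) T
    else 0

section gen

variable {h : Finset X → ℝ} {q d θ ρ : ℝ} {stop : Finset X → Prop}

lemma gen_nonneg (hh : ∀ S, 0 ≤ h S) (hq : 0 ≤ q) (hθ : 0 < θ) :
    ∀ k W T, 0 ≤ gen h q d θ ρ stop k W T := by
  intro k
  induction k with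
  | zero => intro W T; rw [gen]; split_ifs <;> norm_num
  | succ k ih =>
    intro W T
    rw [gen]
    split_ifs <;> try norm_num
    exact sum_nonneg fun S _ => mul_nonneg (div_nonneg (hh S) hθ.le)
      (sum_nonneg fun B _ => mul_nonneg (pow_nonneg hq _) (ih _ _))

lemma gen_eq_zero {T : Finset X} (hT : ¬ stop T) : ∀ k W, gen h q d θ ρ stop k W T = 0 := by
  intro k
  induction k with
  | zero =>
    intro W
    rw [gen, if_neg]
    rintro ⟨hW, rfl⟩
    exact hT hW
  | succ k ih =>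
    intro W
    rw [gen]
    split_ifs with h1 h2 h3
    · exact absurd (h2 ▸ h1) hT
    · rfl
    · simp [ih]
    · rfl

lemma gen_cost (hh : ∀ S, 0 ≤ h S) (hq : 0 ≤ q) (hd : 0 ≤ d) (hθ : 0 < θ) (hρ : 0 ≤ ρ) :
    ∀ k W, ∑ T, gen h q d θ ρ stop k W T * d ^ #T ≤ d ^ #W * ∑ j ∈ range (k + 1), ρ ^ j ∧
      (¬ stop W →
        ∑ T, gen h q d θ ρ stop k W T * d ^ #T ≤ d ^ #W * (ρ * ∑ j ∈ range k, ρ ^ j)) := by
  intro k
  induction k with
  | zero =>
    intro W
    by_cases hs : stop W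
    · simp [gen, hs]
    · simp [gen, hs, pow_nonneg hd]
  | succ k ih =>
    intro W
    have hgeom : ∀ n, 0 ≤ ∑ j ∈ range n, ρ ^ j := fun n => sum_nonneg fun j _ => pow_nonneg hρ j
    have hdW : 0 ≤ d ^ #W := pow_nonneg hd _
    have main : ¬ stop W → ∑ T, gen h q d θ ρ stop (k + 1) W T * d ^ #T ≤
        d ^ #W * (ρ * ∑ j ∈ range (k + 1), ρ ^ j) := by
      intro hs
      by_cases hok : psi h (q + d) W ≤ ρ * θ
      · simp only [gen, if_neg hs, if_pos hok, sum_mul]
        rw [sum_comm]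
        have key : ∀ S, ∑ T, h S / θ * (∑ B ∈ (S \ W).powerset,
              q ^ (#(S \ W) - #B) * gen h q d θ ρ stop k (W ∪ B) T) * d ^ #T ≤
            h S / θ * (q + d) ^ #(S \ W) * (d ^ #W * ∑ j ∈ range (k + 1), ρ ^ j) := by
          intro S
          rw [add_comm q d, ← sum_pow_mul_eq_add_pow, mul_sum, sum_mul]
          simp only [mul_sum (a := h S / θ), sum_mul]
          rw [sum_comm]
          refine sum_le_sum fun B hB => ?_
          have hdisj : Disjoint W B :=
            (disjoint_sdiff.mono_right (mem_powerset.1 hB))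
          have := mul_le_mul_of_nonneg_left (ih (W ∪ B)).1
            (mul_nonneg (div_nonneg (hh S) hθ.le) (pow_nonneg hq (#(S \ W) - #B)))
          rw [mul_sum] at this
          rw [card_union_of_disjoint hdisj, pow_add] at this
          refine le_trans (le_of_eq (sum_congr rfl fun T _ => ?_)) (this.trans (le_of_eq ?_))
          · ring
          · ring
        refine (sum_le_sum fun S _ => key S).trans ?_
        rw [← sum_mul]
        have hpsi : ∑ S, h S / θ * (q + d) ^ #(S \ W) = psi h (q + d) W / θ := by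
          rw [psi, sum_div]; exact sum_congr rfl fun S _ => by ring
        rw [hpsi]
        calc psi h (q + d) W / θ * (d ^ #W * ∑ j ∈ range (k + 1), ρ ^ j)
            ≤ ρ * (d ^ #W * ∑ j ∈ range (k + 1), ρ ^ j) :=
              mul_le_mul_of_nonneg_right ((div_le_iff₀ hθ).2 hok) (mul_nonneg hdW (hgeom _))
          _ = _ := by ring
      · simp [gen, hs, hok, mul_nonneg hdW (mul_nonneg hρ (hgeom _))]
    refine ⟨?_, main⟩
    by_cases hs : stop W
    · simp only [gen, if_pos hs, ite_mul, one_mul, zero_mul, sum_ite_eq', mem_univ, if_true]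
      refine le_mul_of_one_le_right hdW ?_
      rw [sum_range_succ', pow_zero]
      exact le_add_of_nonneg_left (sum_nonneg fun j _ => pow_nonneg hρ _)
    · refine (main hs).trans (mul_le_mul_of_nonneg_left ?_ hdW)
      rw [mul_sum, sum_range_succ' _ (k + 1), pow_zero]
      refine le_add_of_le_of_nonneg (le_of_eq (sum_congr rfl fun j _ => by ring)) zero_le_one

/-- Unions of sampled traces of a well-spread set `V` stay inside `V` and reach `stop`. -/
lemma gen_mass (hh : ∀ S, 0 ≤ h S) (hq : 0 ≤ q) (hθ : 0 < θ) {V : Finset X} {l : ℝ}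
    (hl : l ≤ 1) (hV : θ ≤ psi h q V) (hstopV : stop V)
    (hok : ∀ W ⊆ V, ¬ stop W → psi h (q + d) W ≤ ρ * θ)
    (hinf : ∀ x ∈ V, psi h q (V.erase x) ≤ (1 - l) * psi h q V) :
    ∀ k, ∀ W ⊆ V,
      1 - (#(V \ W) : ℝ) * (1 - l) ^ k ≤ ∑ T ∈ V.powerset, gen h q d θ ρ stop k W T := by
  intro k
  have hstop1 : ∀ k W, W ⊆ V → stop W →
      1 - (#(V \ W) : ℝ) * (1 - l) ^ k ≤ ∑ T ∈ V.powerset, gen h q d θ ρ stop k W T := by
    intro k W hW hs
    have : ∑ T ∈ V.powerset, gen h q d θ ρ stop k W T = 1 := by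
      cases k <;> simp [gen, hs, hW]
    rw [this]
    exact sub_le_self _ (mul_nonneg (Nat.cast_nonneg _) (pow_nonneg (by linarith) _))
  induction k with
  | zero =>
    intro W hW
    by_cases hs : stop W
    · exact hstop1 0 W hW hs
    · have hne : W ≠ V := fun e => hs (e ▸ hstopV)
      have : (1 : ℝ) ≤ #(V \ W) := by
        exact_mod_cast card_pos.2 (sdiff_nonempty.2 fun hVW => hne (hW.antisymm hVW))
      have h0 := sum_nonneg (s := V.powerset) fun T _ =>
        gen_nonneg (d := d) (ρ := ρ) (stop := stop) hh hq hθ 0 W T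
      simp only [pow_zero, mul_one]
      linarith
  | succ k ih =>
    intro W hW
    by_cases hs : stop W
    · exact hstop1 (k + 1) W hW hs
    set Z := psi h q V with hZdef
    have hZ : 0 < Z := hθ.trans_le hV
    simp only [gen, if_neg hs, if_pos (hok W hW hs)]
    rw [sum_comm]
    have key : ∀ S : Finset X, h S * q ^ #(S \ V) / Z *
          (1 - (#((V \ W) \ S) : ℝ) * (1 - l) ^ k) ≤
        ∑ T ∈ V.powerset, h S / θ * ∑ B ∈ (S \ W).powerset,
          q ^ (#(S \ W) - #B) * gen h q d θ ρ stop k (W ∪ B) T := by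
      intro S
      rw [← mul_sum, sum_comm]
      have hB : (S ∩ V) \ W ∈ (S \ W).powerset :=
        mem_powerset.2 (sdiff_subset_sdiff inter_subset_left le_rfl)
      refine le_trans ?_ (mul_le_mul_of_nonneg_left
        (single_le_sum (fun B _ => sum_nonneg fun T _ =>
          mul_nonneg (pow_nonneg hq _) (gen_nonneg hh hq hθ _ _ _)) hB)
        (div_nonneg (hh S) hθ.le))
      rw [← mul_sum]
      have hcard : #(S \ W) - #((S ∩ V) \ W) = #(S \ V) := by
        rw [← card_sdiff_of_subset (sdiff_subset_sdiff inter_subset_left le_rfl)]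
        congr 1
        ext x
        simp only [mem_sdiff, mem_inter]
        constructor
        · rintro ⟨⟨h1, h2⟩, h3⟩
          exact ⟨h1, fun h4 => h3 ⟨⟨h1, h4⟩, h2⟩⟩
        · rintro ⟨h1, h2⟩
          exact ⟨⟨h1, fun h3 => h2 (hW h3)⟩, fun h4 => h2 h4.1.2⟩
      rw [hcard]
      have hsub : W ∪ (S ∩ V) \ W ⊆ V :=
        union_subset hW (sdiff_subset.trans inter_subset_right)
      have hih := ih _ hsub
      have hset : V \ (W ∪ (S ∩ V) \ W) = (V \ W) \ S := by
        ext x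
        simp only [mem_sdiff, mem_union, mem_inter]
        tauto
      rw [hset] at hih
      have hpow : 0 ≤ h S * q ^ #(S \ V) := mul_nonneg (hh S) (pow_nonneg hq _)
      have hM : 0 ≤ ∑ T ∈ V.powerset, gen h q d θ ρ stop k (W ∪ (S ∩ V) \ W) T :=
        sum_nonneg fun T _ => gen_nonneg hh hq hθ _ _ _
      calc h S * q ^ #(S \ V) / Z * (1 - (#((V \ W) \ S) : ℝ) * (1 - l) ^ k)
          ≤ h S * q ^ #(S \ V) / Z *
              ∑ T ∈ V.powerset, gen h q d θ ρ stop k (W ∪ (S ∩ V) \ W) T :=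
            mul_le_mul_of_nonneg_left hih (div_nonneg hpow hZ.le)
        _ ≤ h S * q ^ #(S \ V) / θ *
              ∑ T ∈ V.powerset, gen h q d θ ρ stop k (W ∪ (S ∩ V) \ W) T :=
            mul_le_mul_of_nonneg_right (div_le_div_of_nonneg_left hpow hθ hV) hM
        _ = _ := by ring
    refine le_trans ?_ (sum_le_sum fun S _ => key S)
    have hP : ∑ S, h S * q ^ #(S \ V) / Z = 1 := by
      rw [← sum_div, ← psi, ← hZdef, div_self hZ.ne']
    have hmiss : ∑ S : Finset X, h S * q ^ #(S \ V) / Z * (#((V \ W) \ S) : ℝ) ≤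
        (#(V \ W) : ℝ) * (1 - l) := by
      have e : ∀ S : Finset X, (#((V \ W) \ S) : ℝ) = ∑ x ∈ V \ W, if x ∉ S then 1 else 0 := by
        intro S
        rw [sdiff_eq_filter, sum_boole]
      simp only [e, mul_sum]
      rw [sum_comm]
      refine (sum_le_card_nsmul _ _ (1 - l) fun x hx => ?_).trans_eq (nsmul_eq_mul _ _)
      have hxV := (mem_sdiff.1 hx).1
      refine le_trans (le_of_le_of_eq ?_ (sum_div univ _ Z).symm)
        ((div_le_iff₀ hZ).2 (hinf x hxV))
      refine sum_le_sum fun S _ => ?_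
      by_cases hxS : x ∈ S
      · simp only [hxS, not_true, if_false, mul_zero]
        exact div_nonneg (mul_nonneg (hh S) (pow_nonneg hq _)) hZ.le
      · have : S \ V.erase x = S \ V := by
          ext y
          simp only [mem_sdiff, mem_erase]
          constructor
          · rintro ⟨h1, h2⟩; exact ⟨h1, fun h3 => h2 ⟨fun e => hxS (e ▸ h1), h3⟩⟩
          · rintro ⟨h1, h2⟩; exact ⟨h1, fun h3 => h2 h3.2⟩
        simp [hxS, this]
    calc 1 - (#(V \ W) : ℝ) * (1 - l) ^ (k + 1)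
        ≤ 1 - (∑ S : Finset X, h S * q ^ #(S \ V) / Z * (#((V \ W) \ S) : ℝ)) * (1 - l) ^ k := by
          have := mul_le_mul_of_nonneg_right hmiss (pow_nonneg (by linarith : 0 ≤ 1 - l) k)
          rw [pow_succ]
          linarith
      _ = _ := by
          simp only [mul_sub, mul_one, sum_sub_distrib, hP, sum_mul, mul_assoc]

end gen

/-- Randomized rounding of a weighted family. -/
lemma exists_rounding (C : Finset (Finset X)) (G c : Finset X → ℝ) (hG : ∀ T, 0 ≤ G T)
    (hc : ∀ T, 0 ≤ c T) {L : ℝ} (hL : 0 ≤ L) :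
    ∀ 𝒱 : Finset (Finset X), ∃ S ⊆ C,
      ∑ T ∈ S, c T + ∑ V ∈ 𝒱.filter (fun V => ∀ T ∈ S, ¬ T ⊆ V), c V ≤
        L * ∑ T ∈ C, G T * c T +
          ∑ V ∈ 𝒱, c V * Real.exp (-(L * ∑ T ∈ C.filter (· ⊆ V), G T)) := by
  induction C using Finset.induction_on with
  | empty => intro 𝒱; exact ⟨∅, Subset.rfl, by simp⟩
  | insert a C ha ih =>
    intro 𝒱
    obtain ⟨S₁, hS₁, h₁⟩ := ih (𝒱.filter (fun V => ¬ a ⊆ V))
    obtain ⟨S₀, hS₀, h₀⟩ := ih 𝒱
    have haS : a ∉ S₁ := fun h => ha (hS₁ h)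
    set p := min 1 (L * G a)
    have hp0 : 0 ≤ p := le_min zero_le_one (mul_nonneg hL (hG a))
    have hp1 : p ≤ 1 := min_le_left _ _
    have hexp : 1 - p ≤ Real.exp (-(L * G a)) := by
      rcases le_total 1 (L * G a) with h | h
      · simp [p, h, (Real.exp_pos _).le]
      · simp only [p, min_eq_right h]; exact Real.one_sub_le_exp_neg _
    have hfil : (𝒱.filter fun V => ∀ T ∈ insert a S₁, ¬ T ⊆ V) =
        (𝒱.filter fun V => ¬ a ⊆ V).filter fun V => ∀ T ∈ S₁, ¬ T ⊆ V := by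
      rw [filter_filter]; exact filter_congr fun V _ => by simp
    set m : Finset X → ℝ := fun V => ∑ T ∈ C.filter (· ⊆ V), G T
    have hm : ∀ V, (∑ T ∈ (insert a C).filter (· ⊆ V), G T) =
        m V + if a ⊆ V then G a else 0 := by
      intro V
      rw [filter_insert]
      split_ifs with hav
      · rw [sum_insert (by simp [ha]), add_comm]
      · simp [m]
    have mix : p * (c a + (L * ∑ T ∈ C, G T * c T +
          ∑ V ∈ 𝒱.filter (fun V => ¬ a ⊆ V), c V * Real.exp (-(L * m V)))) +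
        (1 - p) * (L * ∑ T ∈ C, G T * c T + ∑ V ∈ 𝒱, c V * Real.exp (-(L * m V))) ≤
        L * ∑ T ∈ insert a C, G T * c T +
          ∑ V ∈ 𝒱, c V * Real.exp (-(L * ∑ T ∈ (insert a C).filter (· ⊆ V), G T)) := by
      rw [sum_insert ha]
      have hpa : p * c a ≤ L * (G a * c a) := by
        rw [← mul_assoc]; exact mul_le_mul_of_nonneg_right (min_le_right _ _) (hc a)
      have hV : p * ∑ V ∈ 𝒱.filter (fun V => ¬ a ⊆ V), c V * Real.exp (-(L * m V)) +
          (1 - p) * ∑ V ∈ 𝒱, c V * Real.exp (-(L * m V)) ≤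
          ∑ V ∈ 𝒱, c V * Real.exp (-(L * ∑ T ∈ (insert a C).filter (· ⊆ V), G T)) := by
        rw [sum_filter, mul_sum, mul_sum, ← sum_add_distrib]
        refine sum_le_sum fun V _ => ?_
        rw [hm V]
        have hcv : 0 ≤ c V * Real.exp (-(L * m V)) := mul_nonneg (hc V) (Real.exp_pos _).le
        by_cases hav : a ⊆ V
        · simp only [hav, not_true, if_false, mul_zero, zero_add, if_true]
          rw [show -(L * (m V + G a)) = -(L * m V) + -(L * G a) by ring, Real.exp_add]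
          have := mul_le_mul_of_nonneg_left hexp hcv
          linarith
        · simp only [hav, not_false_iff, if_true, if_false, add_zero]
          linarith
      linarith
    rcases le_total (c a + (L * ∑ T ∈ C, G T * c T +
          ∑ V ∈ 𝒱.filter (fun V => ¬ a ⊆ V), c V * Real.exp (-(L * m V))))
        (L * ∑ T ∈ C, G T * c T + ∑ V ∈ 𝒱, c V * Real.exp (-(L * m V))) with hle | hle
    · refine ⟨insert a S₁, insert_subset_insert _ hS₁, ?_⟩
      rw [hfil, sum_insert haS]
      have := mul_le_mul_of_nonneg_left hle (sub_nonneg.2 hp1)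
      linarith
    · refine ⟨S₀, hS₀.trans (subset_insert _ _), ?_⟩
      have := mul_le_mul_of_nonneg_left hle hp0
      linarith

open Classical in
/-- Well-spread minimal sets at one level. -/
noncomputable def cores (h : Finset X → ℝ) (q : ℝ) (u : ℕ) (θ : ℝ) : Finset (Finset X) :=
  univ.filter fun V => #V ≤ u ∧ θ ≤ psi h q V ∧ (∀ V' ⊂ V, psi h q V' < θ) ∧
    ∀ x ∈ V, psi h q (V.erase x) ≤ (1 - 1 / (u : ℝ) ^ 2) * θ

lemma mass_half {h : Finset X → ℝ} (hh : ∀ S, 0 ≤ h S) {q d θ ρ : ℝ} (hq : 0 ≤ q)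
    (hθ : 0 < θ) {stop : Finset X → Prop} {u : ℕ} (hu : 1 ≤ u) {V : Finset X}
    (hV : V ∈ cores h q u θ) (hstopV : stop V)
    (hok : ∀ W ⊆ V, ¬ stop W → psi h (q + d) W ≤ ρ * θ) :
    1 / 2 ≤ ∑ T ∈ V.powerset, gen h q d θ ρ stop (2 * u ^ 3) ∅ T := by
  simp only [cores, mem_filter, mem_univ, true_and] at hV
  obtain ⟨hcard, hθV, -, hx⟩ := hV
  have hu' : (1 : ℝ) ≤ u := by exact_mod_cast hu
  have hl : 1 / (u : ℝ) ^ 2 ≤ 1 := by
    rw [div_le_one (by positivity)]; nlinarith
  have h1 := gen_mass (d := d) (ρ := ρ) hh hq hθ hl hθV hstopV hok (fun x h' =>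
    (hx x h').trans (mul_le_mul_of_nonneg_left hθV (sub_nonneg.2 hl))) (2 * u ^ 3) ∅ (empty_subset _)
  rw [sdiff_empty] at h1
  refine le_trans ?_ h1
  set l := 1 / (u : ℝ) ^ 2 with hldef
  have hl0 : 0 ≤ l := by positivity
  have hb : (1 - l) ^ (2 * u ^ 3) * (1 + (2 * u ^ 3 : ℕ) * l) ≤ 1 := by
    calc (1 - l) ^ (2 * u ^ 3) * (1 + (2 * u ^ 3 : ℕ) * l)
        ≤ (1 - l) ^ (2 * u ^ 3) * (1 + l) ^ (2 * u ^ 3) :=
          mul_le_mul_of_nonneg_left (one_add_mul_le_pow (by linarith) _)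
            (pow_nonneg (by linarith) _)
      _ = ((1 - l) * (1 + l)) ^ (2 * u ^ 3) := (mul_pow _ _ _).symm
      _ ≤ 1 := pow_le_one₀ (mul_nonneg (by linarith) (by linarith)) (by nlinarith)
  have he : ((2 * u ^ 3 : ℕ) : ℝ) * l = 2 * u := by
    rw [hldef]; push_cast; field_simp
  rw [he] at hb
  have hp : 0 ≤ (1 - l) ^ (2 * u ^ 3) := pow_nonneg (by linarith) _
  have : (#V : ℝ) * (1 - l) ^ (2 * u ^ 3) ≤ u * (1 - l) ^ (2 * u ^ 3) :=
    mul_le_mul_of_nonneg_right (by exact_mod_cast hcard) hp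
  nlinarith

lemma cores_weight {h : Finset X → ℝ} (hh : ∀ S, 0 ≤ h S) {D : ℕ}
    (hD : ∀ S, h S ≠ 0 → #S ≤ D) {q d θ : ℝ} (hd : 0 ≤ d) (hdq : d ≤ q) (hθ : 0 < θ) {u : ℕ}
    (hu : 1 ≤ u) :
    ∑ V ∈ cores h q u θ, d ^ #V ≤ 2 * ∑ j ∈ range (2 * u ^ 3 + 1), ((2 : ℝ) ^ D) ^ j := by
  have hq : 0 ≤ q := hd.trans hdq
  have key : ∀ V ∈ cores h q u θ,
      1 / 2 ≤ gen h q d θ (2 ^ D) (· ∈ cores h q u θ) (2 * u ^ 3) ∅ V := by
    intro V hV
    have hlt : ∀ W ⊂ V, psi h q W < θ := (mem_filter.1 hV).2.2.2.1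
    have hp : ∀ W ⊂ V, W ∉ cores h q u θ := fun W hW hWc =>
      not_lt.2 (mem_filter.1 hWc).2.2.1 (hlt W hW)
    refine (mass_half (stop := (· ∈ cores h q u θ)) (d := d) (ρ := 2 ^ D) hh hq hθ hu hV hV
      fun W hW hs => ?_).trans (le_of_eq ?_)
    · have hne : W ≠ V := fun e => hs (e ▸ hV)
      exact (psi_double hh hD (by linarith) (by linarith) W).trans
        (mul_le_mul_of_nonneg_left (hlt W (hW.ssubset_of_ne hne)).le (by positivity))
    · refine sum_eq_single_of_mem V (mem_powerset_self V) fun T hT hne => ?_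
      exact gen_eq_zero (hp T ((mem_powerset.1 hT).ssubset_of_ne hne)) _ _
  have hc := (gen_cost (stop := (· ∈ cores h q u θ)) (ρ := (2 : ℝ) ^ D) hh hq hd hθ
    (by positivity) (2 * u ^ 3) ∅).1
  rw [card_empty, pow_zero, one_mul] at hc
  refine le_trans ?_ (mul_le_mul_of_nonneg_left hc zero_le_two)
  refine le_trans ?_ (mul_le_mul_of_nonneg_left (sum_le_sum_of_subset_of_nonneg
    (subset_univ (cores h q u θ)) fun T _ _ =>
      mul_nonneg (gen_nonneg hh hq hθ _ _ _) (pow_nonneg hd _)) zero_le_two)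
  rw [mul_sum]
  refine sum_le_sum fun V hV => ?_
  have := mul_le_mul_of_nonneg_right (key V hV) (pow_nonneg hd #V)
  linarith

open Classical in
/-- A cheap cover of the cores of one level that cannot be shrunk below size `s`. -/
lemma level {h : Finset X → ℝ} (hh : ∀ S, 0 ≤ h S) {D : ℕ} (hD : ∀ S, h S ≠ 0 → #S ≤ D)
    {q d θ ρ : ℝ} (hd : 0 ≤ d) (hdq : d ≤ q) (hθ : 0 < θ) (hρ0 : 0 ≤ ρ) (hρ1 : ρ ≤ 1) {u : ℕ}
    (hu : 1 ≤ u) {s : ℕ} (hs : 1 ≤ s) (e : ℕ) :
    ∃ 𝒢 : Finset (Finset X), ∅ ∉ 𝒢 ∧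
      cost (d / 4) 𝒢 ≤
        4 * (((D + 2) * (2 * u ^ 3 + 1) + e : ℕ) : ℝ) * ((1 / 4) ^ s * (ρ * (2 * u ^ 3 : ℕ))) +
          (1 / 2) ^ e ∧
      ∀ V ∈ cores h q u θ, s ≤ #V → (∀ W ⊆ V, #W < s → psi h (q + d) W ≤ ρ * θ) →
        ∃ T ∈ 𝒢, T ⊆ V := by
  have hq : 0 ≤ q := hd.trans hdq
  set K := 2 * u ^ 3 with hK
  set N := (D + 2) * (K + 1) + e with hN
  set G := gen h q d θ ρ (fun W => s ≤ #W) K ∅
  set 𝒱 := (cores h q u θ).filter fun V =>
    s ≤ #V ∧ ∀ W ⊆ V, #W < s → psi h (q + d) W ≤ ρ * θ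
  set C := univ.filter fun T : Finset X => s ≤ #T
  have hd4 : 0 ≤ d / 4 := by linarith
  have hG : ∀ T, 0 ≤ G T := gen_nonneg hh hq hθ K ∅
  obtain ⟨S, hS, hcost⟩ := exists_rounding C G (fun T => (d / 4) ^ #T) hG
    (fun T => pow_nonneg hd4 _) (L := 4 * (N : ℝ)) (by positivity) 𝒱
  refine ⟨S ∪ 𝒱.filter (fun V => ∀ T ∈ S, ¬ T ⊆ V), ?_, ?_, fun V hV hsV hok => ?_⟩
  · simp only [mem_union, mem_filter, not_or]
    refine ⟨fun hE => ?_, fun hE => ?_⟩
    · have := (mem_filter.1 (hS hE)).2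
      simp at this; omega
    · have := (mem_filter.1 hE.1).2.1
      simp at this; omega
  · refine le_trans ?_ (le_trans hcost ?_)
    · rw [cost]
      refine le_trans (le_of_eq ?_) (le_add_of_nonneg_right
        (sum_nonneg (s := S ∩ 𝒱.filter (fun V => ∀ T ∈ S, ¬ T ⊆ V))
          fun T _ => pow_nonneg hd4 #T) |>.trans (le_of_eq (sum_union_inter)))
      rfl
    refine add_le_add (mul_le_mul_of_nonneg_left ?_ (by positivity)) ?_
    · calc ∑ T ∈ C, G T * (d / 4) ^ #T ≤ ∑ T ∈ C, (1 / 4) ^ s * (G T * d ^ #T) := by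
            refine sum_le_sum fun T hT => ?_
            have := pow_le_pow_of_le_one (by norm_num : (0 : ℝ) ≤ 1 / 4) (by norm_num)
              (mem_filter.1 hT).2
            rw [show d / 4 = 1 / 4 * d by ring, mul_pow]
            calc G T * ((1 / 4) ^ #T * d ^ #T) ≤ G T * ((1 / 4) ^ s * d ^ #T) :=
                  mul_le_mul_of_nonneg_left
                    (mul_le_mul_of_nonneg_right this (pow_nonneg hd _)) (hG T)
              _ = _ := by ring
        _ ≤ (1 / 4) ^ s * ∑ T, G T * d ^ #T := by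
            rw [← mul_sum]
            exact mul_le_mul_of_nonneg_left (sum_le_sum_of_subset_of_nonneg (subset_univ _)
              fun T _ _ => mul_nonneg (hG T) (pow_nonneg hd _)) (by positivity)
        _ ≤ (1 / 4) ^ s * (ρ * (K : ℕ)) := by
            refine mul_le_mul_of_nonneg_left ?_ (by positivity)
            refine ((gen_cost hh hq hd hθ hρ0 K ∅).2 (by simp; omega)).trans ?_
            rw [card_empty, pow_zero, one_mul]
            refine mul_le_mul_of_nonneg_left ?_ hρ0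
            calc ∑ j ∈ range K, ρ ^ j ≤ ∑ j ∈ range K, (1 : ℝ) :=
                  sum_le_sum fun j _ => pow_le_one₀ hρ0 hρ1
              _ = K := by simp
    · have hm : ∀ V ∈ 𝒱, 1 / 2 ≤ ∑ T ∈ C.filter (· ⊆ V), G T := by
        intro V hV
        obtain ⟨hVc, hsV, hok⟩ := mem_filter.1 hV
        refine (mass_half (stop := fun W => s ≤ #W) hh hq hθ hu hVc hsV
          fun W hW hW' => hok W hW (not_le.1 hW')).trans (le_of_eq ?_)
        symm
        refine sum_subset (fun T hT => ?_) fun T hT hT' => ?_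
        · exact mem_powerset.2 (mem_filter.1 hT).2
        · refine gen_eq_zero (fun hh' => hT' ?_) K ∅
          simp only [C, mem_filter, mem_univ, true_and]
          exact ⟨hh', mem_powerset.1 hT⟩
      have hw : ∑ V ∈ 𝒱, (d / 4) ^ #V ≤ 2 ^ ((D + 2) * (K + 1)) := by
        refine (sum_le_sum fun V _ => pow_le_pow_left₀ hd4 (by linarith : d / 4 ≤ d) _).trans ?_
        refine (sum_le_sum_of_subset_of_nonneg (filter_subset _ _)
          fun V _ _ => pow_nonneg hd _).trans ((cores_weight hh hD hd hdq hθ hu).trans ?_)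
        have : ∑ j ∈ range (K + 1), ((2 : ℝ) ^ D) ^ j ≤ (K + 1 : ℕ) * 2 ^ (D * K) := by
          refine (sum_le_card_nsmul _ _ _ fun j hj => ?_).trans_eq (by rw [card_range, nsmul_eq_mul])
          rw [← pow_mul]
          exact pow_le_pow_right₀ one_le_two
            (Nat.mul_le_mul_left _ (Nat.lt_succ_iff.1 (mem_range.1 hj)))
        have h2 : ((K + 1 : ℕ) : ℝ) ≤ 2 ^ (K + 1) := by
          exact_mod_cast (Nat.lt_two_pow_self).le
        calc 2 * ∑ j ∈ range (K + 1), ((2 : ℝ) ^ D) ^ j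
            ≤ 2 * (2 ^ (K + 1) * 2 ^ (D * K)) := by
              refine mul_le_mul_of_nonneg_left (this.trans ?_) zero_le_two
              exact mul_le_mul_of_nonneg_right h2 (by positivity)
          _ = (2 : ℝ) ^ (1 + (K + 1) + D * K) := by ring
          _ ≤ 2 ^ ((D + 2) * (K + 1)) := pow_le_pow_right₀ one_le_two (by
              rw [add_mul, mul_add]; omega)
      calc ∑ V ∈ 𝒱, (d / 4) ^ #V * Real.exp (-(4 * (N : ℝ) * ∑ T ∈ C.filter (· ⊆ V), G T))
          ≤ ∑ V ∈ 𝒱, (d / 4) ^ #V * (1 / 2) ^ N := by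
            refine sum_le_sum fun V hV => mul_le_mul_of_nonneg_left ?_ (pow_nonneg hd4 _)
            calc Real.exp (-(4 * (N : ℝ) * ∑ T ∈ C.filter (· ⊆ V), G T))
                ≤ Real.exp (N * (-2)) := Real.exp_le_exp.2 (by
                  have := mul_le_mul_of_nonneg_left (hm V hV)
                    (by positivity : (0 : ℝ) ≤ 4 * N)
                  linarith)
              _ = Real.exp (-2) ^ N := Real.exp_nat_mul _ _
              _ ≤ (1 / 2) ^ N := by
                  refine pow_le_pow_left₀ (Real.exp_pos _).le ?_ _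
                  rw [Real.exp_neg, one_div]
                  exact inv_anti₀ two_pos (by linarith [Real.add_one_le_exp (2 : ℝ)])
        _ ≤ 2 ^ ((D + 2) * (K + 1)) * (1 / 2) ^ N := by
            rw [← sum_mul]; exact mul_le_mul_of_nonneg_right hw (by positivity)
        _ = (1 / 2) ^ e := by
            rw [hN, pow_add, ← mul_assoc, ← mul_pow]; norm_num
  · by_cases hcov : ∀ T ∈ S, ¬ T ⊆ V
    · exact ⟨V, mem_union_right _ (mem_filter.2 ⟨mem_filter.2 ⟨hV, hsV, hok⟩, hcov⟩), Subset.rfl⟩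
    · push Not at hcov
      obtain ⟨T, hT, hTV⟩ := hcov
      exact ⟨T, mem_union_left _ hT, hTV⟩

end Vale.Agent.P034
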