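import Mathlib

/-!
P034: integral and fractional expectation thresholds.
-/

open Finset

namespace Vale.Agent.P034

/-- Iterated exponential: `expTower 0 = 1`, `expTower (n + 1) = 2 ^ expTower n`. -/
def expTower (n : ℕ) : ℕ := (fun m => 2 ^ m)^[n] 1

variable {X : Type*} [Fintype X] [DecidableEq X]

/-- An increasing family: closed under supersets. -/
def IsIncreasing (F : Finset (Finset X)) : Prop := ∀ S ∈ F, ∀ T, S ⊆ T → T ∈ F

/-- Some cover of `F` costs at most `1/2` at `p`. -/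
def IsSmall (F : Finset (Finset X)) (p : ℝ) : Prop :=
  ∃ 𝒢 : Finset (Finset X), (∀ H ∈ F, ∃ S ∈ 𝒢, S ⊆ H) ∧ ∑ S ∈ 𝒢, p ^ #S ≤ 1 / 2

/-- Some fractional cover of `F` costs at most `1/2` at `p`. -/
def IsFracSmall (F : Finset (Finset X)) (p : ℝ) : Prop :=
  ∃ g : Finset X → ℝ, (∀ S, 0 ≤ g S ∧ g S ≤ 1) ∧ (∀ H ∈ F, 1 ≤ ∑ S ∈ H.powerset, g S) ∧
    ∑ S, g S * p ^ #S ≤ 1 / 2

/-- The integral expectation threshold `q`. -/
noncomputable def qInt (F : Finset (Finset X)) : ℝ :=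
  sSup {p | p ∈ Set.Icc (0 : ℝ) 1 ∧ IsSmall F p}

/-- The fractional expectation threshold `q_f`. -/
noncomputable def qFrac (F : Finset (Finset X)) : ℝ :=
  sSup {p | p ∈ Set.Icc (0 : ℝ) 1 ∧ IsFracSmall F p}

end Vale.Agent.P034
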