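import Mathlib
import Vale.Agent.P034.Core

/-!
P034: one round (the witness size drops to about its logarithm), the last round, and the
descent along the tower function.
-/

open Finset

namespace Vale.Agent.P034

/-- The tower function. -/
def tower : ℕ → ℕ
  | 0 => 1
  | k + 1 => 2 ^ tower k

lemma tower_eq : ∀ n, tower n = (fun m => 2 ^ m)^[n] 1
  | 0 => rfl
  | n + 1 => by rw [Function.iterate_succ_apply', ← tower_eq n]; rfl

variable {X : Type*} [Fintype X] [DecidableEq X] {h : Finset X → ℝ}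

/-- Upper bound on the witness size after a round. -/
def target (t u : ℕ) : ℕ := 4 * t + 16 + 9 * Nat.log 2 u

lemma log_small {u : ℕ} (hu : 512 ≤ u) : 32 * Nat.log 2 u ≤ u := by
  have h9 : 9 ≤ Nat.log 2 u :=
    Nat.le_log_of_pow_le one_lt_two ((by norm_num : 2 ^ 9 ≤ 512).trans hu)
  have h2 := Nat.pow_log_le_self 2 (show u ≠ 0 by omega)
  have : ∀ L, 8 ≤ L → 32 * L ≤ 2 ^ L := by
    intro L hL
    induction L, hL using Nat.le_induction with
    | base => norm_num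
    | succ n hn ih => rw [pow_succ]; omega
  exact (this _ (by omega)).trans h2

lemma target_le {t u : ℕ} (ht : 1 ≤ t) (hu : 512 * t ≤ u) : target t u - 1 ≤ u / 2 := by
  have := log_small (show 512 ≤ u by omega)
  unfold target; omega

lemma target_tower {t u T : ℕ} (ht : 1 ≤ t) (hu : u ≤ 32 * 2 ^ T) :
    target t u - 1 ≤ max (512 * t) (32 * T) := by
  have : Nat.log 2 u ≤ 5 + T := by
    refine (Nat.log_mono_right hu).trans (le_of_eq ?_)
    rw [show 32 * 2 ^ T = 2 ^ (5 + T) by ring, Nat.log_pow one_lt_two]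
  unfold target; omega

lemma cost_union_le {c : ℝ} (hc : 0 ≤ c) (A B : Finset (Finset X)) :
    cost c (A ∪ B) ≤ cost c A + cost c B := by
  rw [cost, cost, cost, ← sum_union_inter]
  exact le_add_of_nonneg_right (sum_nonneg fun T _ => pow_nonneg hc _)

lemma cost_biUnion_le {c : ℝ} (hc : 0 ≤ c) {ι : Type*} [DecidableEq ι] (I : Finset ι)
    (A : ι → Finset (Finset X)) : cost c (I.biUnion A) ≤ ∑ i ∈ I, cost c (A i) := by
  induction I using Finset.induction_on with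
  | empty => simp [cost]
  | insert a I ha ih =>
    rw [biUnion_insert, sum_insert ha]
    exact (cost_union_le hc _ _).trans (by linarith)

/-- The threshold chain ends in a core. -/
lemma exists_core (hh : ∀ S, 0 ≤ h S) {q θ : ℝ} (hq : 0 ≤ q) {u : ℕ} (W : Finset X) (k : ℕ)
    (hW : #W + k ≤ u) (hθ : θ * (1 - 1 / (u : ℝ) ^ 2) ^ k ≤ psi h q W) :
    ∃ j ≤ u, ∃ V ⊆ W, V ∈ cores h q u (θ * (1 - 1 / (u : ℝ) ^ 2) ^ j) := by
  induction hn : #W using Nat.strong_induction_on generalizing W k with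
  | _ n ih =>
    subst hn
    classical
    set a := θ * (1 - 1 / (u : ℝ) ^ 2) ^ k with ha
    obtain ⟨V, hV, hmin⟩ := (W.powerset.filter fun V => a ≤ psi h q V).exists_min_image
      (fun V => #V) ⟨W, mem_filter.2 ⟨mem_powerset_self W, hθ⟩⟩
    obtain ⟨hVW, haV⟩ := mem_filter.1 hV
    rw [mem_powerset] at hVW
    by_cases hx : ∀ x ∈ V, psi h q (V.erase x) ≤ (1 - 1 / (u : ℝ) ^ 2) * a
    · refine ⟨k, by omega, V, hVW, ?_⟩
      simp only [cores, mem_filter, mem_univ, true_and]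
      refine ⟨(card_le_card hVW).trans (by omega), haV, fun V' hV' => ?_, hx⟩
      by_contra hc
      have := hmin V' (mem_filter.2 ⟨mem_powerset.2 (hV'.subset.trans hVW), not_lt.1 hc⟩)
      exact absurd (card_lt_card hV') (not_lt.2 this)
    · push Not at hx
      obtain ⟨x, hxV, hx⟩ := hx
      have hlt : #(V.erase x) < #W :=
        (card_erase_lt_of_mem hxV).trans_le (card_le_card hVW)
      obtain ⟨j, hj, V', hV', hc⟩ := ih _ hlt (V.erase x) (k + 1) (by omega)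
        (by rw [pow_succ, ← mul_assoc, mul_comm]; exact hx.le) rfl
      exact ⟨j, hj, V', hV'.trans ((erase_subset _ _).trans hVW), hc⟩

lemma theta_pos_bounds {θ : ℝ} (hθ : 0 ≤ θ) {u : ℕ} (hu : 1 ≤ u) {j : ℕ} (hj : j ≤ u) :
    θ * (1 - 1 / u) ≤ θ * (1 - 1 / (u : ℝ) ^ 2) ^ j ∧ θ * (1 - 1 / (u : ℝ) ^ 2) ^ j ≤ θ := by
  have hu' : (1 : ℝ) ≤ u := by exact_mod_cast hu
  have h1 : 1 / (u : ℝ) ^ 2 ≤ 1 := by rw [div_le_one (by positivity)]; nlinarith
  refine ⟨mul_le_mul_of_nonneg_left ?_ hθ, mul_le_of_le_one_right hθ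
    (pow_le_one₀ (by linarith) (by simp))⟩
  refine le_trans ?_ (pow_le_pow_of_le_one (by linarith) (by simp) hj)
  have := one_add_mul_le_pow (a := -(1 / (u : ℝ) ^ 2)) (by linarith) u
  rw [← sub_eq_add_neg] at this
  refine le_trans (le_of_eq ?_) this
  field_simp
  ring

lemma N_le {D u e : ℕ} (hu : 1 ≤ u) (hD : D + 2 ≤ u) (he : e ≤ u) :
    ((((D + 2) * (2 * u ^ 3 + 1) + e : ℕ)) : ℝ) ≤ 4 * (u : ℝ) ^ 4 := by
  have : (D + 2) * (2 * u ^ 3 + 1) + e ≤ 4 * u ^ 4 :=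
    calc (D + 2) * (2 * u ^ 3 + 1) + e ≤ u * (2 * u ^ 3 + 1) + u :=
          add_le_add (Nat.mul_le_mul_right _ hD) he
      _ ≤ 2 * u ^ 4 + 2 * u ^ 4 := by
          have : u ≤ u ^ 4 := Nat.le_self_pow (by norm_num) u
          rw [mul_add, show u * (2 * u ^ 3) = 2 * u ^ 4 by ring]; omega
      _ = _ := by ring
  exact_mod_cast this

open Classical in
/-- One round. -/
lemma round (hh : ∀ S, 0 ≤ h S) {t : ℕ} (ht : 1 ≤ t) (hD : ∀ S, h S ≠ 0 → #S ≤ 2 * t)
    {q d θ : ℝ} (hd : 0 ≤ d) (hdq : d ≤ q) (hθ : 1 / 4 ≤ θ) (hθ1 : θ ≤ 1) {u : ℕ}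
    (hu : 512 * t ≤ u) :
    ∃ 𝒢 : Finset (Finset X), ∅ ∉ 𝒢 ∧ cost (d / 4) 𝒢 ≤ (1 / 2) ^ (4 * t) / u ∧
      ∀ W, #W ≤ u → θ ≤ psi h q W → (∃ T ∈ 𝒢, T ⊆ W) ∨
        ∃ W' ⊆ W, #W' ≤ target t u - 1 ∧ θ - 3 / u ≤ psi h (q + d) W' := by
  have hu1 : 1 ≤ u := by omega
  have hq : 0 ≤ q := hd.trans hdq
  have hu' : (2 : ℝ) ≤ u := by exact_mod_cast (by omega : 2 ≤ u)
  set s := target t u with hs
  set a : ℕ → ℝ := fun k => θ * (1 - 1 / (u : ℝ) ^ 2) ^ k
  have ha : ∀ k ≤ u, 0 < a k ∧ θ - 1 / u ≤ a k ∧ a k ≤ 1 := fun k hk => by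
    obtain ⟨h1, h2⟩ := theta_pos_bounds (by linarith : 0 ≤ θ) hu1 hk
    have h3 : (1 : ℝ) / u ≤ 1 / 2 := one_div_le_one_div_of_le two_pos hu'
    refine ⟨lt_of_lt_of_le (mul_pos (by linarith) (by linarith)) h1, ?_, h2.trans hθ1⟩
    refine le_trans ?_ h1
    have := mul_le_mul_of_nonneg_right hθ1 (by positivity : (0 : ℝ) ≤ 1 / u)
    linarith
  set ρ : ℝ := 1 - 2 / u
  have hρ0 : 0 ≤ ρ := by
    have : (2 : ℝ) / u ≤ 1 := (div_le_one (by linarith)).2 hu'
    linarith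
  have hρ1 : ρ ≤ 1 := sub_le_self _ (by positivity)
  have hlev : ∀ k : ℕ, ∃ 𝒢 : Finset (Finset X), k ≤ u → ∅ ∉ 𝒢 ∧
      cost (d / 4) 𝒢 ≤
        4 * (((2 * t + 2) * (2 * u ^ 3 + 1) + s : ℕ) : ℝ) *
            ((1 / 4) ^ s * (ρ * (2 * u ^ 3 : ℕ))) + (1 / 2) ^ s ∧
      ∀ V ∈ cores h q u (a k), s ≤ #V → (∀ W ⊆ V, #W < s → psi h (q + d) W ≤ ρ * a k) →
        ∃ T ∈ 𝒢, T ⊆ V := fun k => by
    by_cases hk : k ≤ u
    · obtain ⟨𝒢, h⟩ := level hh hD hd hdq (ha k hk).1 hρ0 hρ1 hu1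
        (show 1 ≤ s by rw [hs, target]; omega) s
      exact ⟨𝒢, fun _ => h⟩
    · exact ⟨∅, fun h => absurd h hk⟩
  choose A hA using hlev
  refine ⟨(range (u + 1)).biUnion A, ?_, ?_, fun W hW hθW => ?_⟩
  · simp only [mem_biUnion, mem_range, not_exists, not_and]
    exact fun k hk => (hA k (by omega)).1
  · refine (cost_biUnion_le (by linarith) _ _).trans ?_
    refine (sum_le_card_nsmul _ _ _ fun k hk =>
      (hA k (Nat.lt_succ_iff.1 (mem_range.1 hk))).2.1).trans ?_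
    rw [card_range, nsmul_eq_mul]
    have hN := N_le (D := 2 * t) (e := s) hu1 (by omega)
      (by have := log_small (show 512 ≤ u by omega); rw [hs, target]; omega)
    have hsq : (2 : ℝ) ^ (4 * t + 7) * (u : ℝ) ^ 9 ≤ 2 ^ s := by
      have h1 : (u : ℝ) ≤ 2 ^ (Nat.log 2 u + 1) := by
        exact_mod_cast (Nat.lt_pow_succ_log_self one_lt_two u).le
      calc (2 : ℝ) ^ (4 * t + 7) * (u : ℝ) ^ 9
          ≤ 2 ^ (4 * t + 7) * (2 ^ (Nat.log 2 u + 1)) ^ 9 :=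
            mul_le_mul_of_nonneg_left (pow_le_pow_left₀ (by positivity) h1 _) (by positivity)
        _ = 2 ^ s := by rw [← pow_mul, ← pow_add, hs, target]; ring_nf
    have h4 : ((1 : ℝ) / 4) ^ s ≤ (1 / 2) ^ s := pow_le_pow_left₀ (by norm_num) (by norm_num) _
    have h5 : ρ * ((2 * u ^ 3 : ℕ) : ℝ) ≤ 2 * (u : ℝ) ^ 3 := by
      push_cast; exact mul_le_of_le_one_left (by positivity) hρ1
    have hu7 : 1 ≤ (u : ℝ) ^ 7 := one_le_pow₀ (by linarith)
    calc ((u + 1 : ℕ) : ℝ) * (4 * (((2 * t + 2) * (2 * u ^ 3 + 1) + s : ℕ) : ℝ) *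
            ((1 / 4) ^ s * (ρ * (2 * u ^ 3 : ℕ))) + (1 / 2) ^ s)
        ≤ (2 * u) * (4 * (4 * (u : ℝ) ^ 4) * ((1 / 2) ^ s * (2 * (u : ℝ) ^ 3)) + (1 / 2) ^ s) := by
          refine mul_le_mul (by push_cast; linarith) ?_ (by positivity) (by positivity)
          refine add_le_add (mul_le_mul (by linarith) ?_ (by positivity) (by positivity)) le_rfl
          exact mul_le_mul h4 h5 (by positivity) (by positivity)
      _ ≤ 66 * (u : ℝ) ^ 8 * (1 / 2) ^ s := by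
          nlinarith [mul_le_mul_of_nonneg_left hu7
            (by positivity : (0 : ℝ) ≤ 2 * u * (1 / 2) ^ s)]
      _ ≤ 2 ^ 7 * (u : ℝ) ^ 8 * (1 / 2) ^ s := by gcongr; norm_num
      _ ≤ (1 / 2) ^ (4 * t) / u := by
          rw [le_div_iff₀ (by linarith), one_div_pow, one_div_pow, mul_one_div, div_mul_eq_mul_div,
            div_le_div_iff₀ (by positivity) (by positivity)]
          refine le_trans (le_of_eq ?_) (hsq.trans_eq (one_mul _).symm)
          rw [pow_add]; ring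
  · obtain ⟨j, hj, V, hVW, hV⟩ := exists_core hh hq W 0 (by omega) (by simpa using hθW)
    obtain ⟨a0, a1, a2⟩ := ha j hj
    have hVc := (mem_filter.1 hV).2
    have hW' : ∀ W' ⊆ V, #W' < s → ρ * a j < psi h (q + d) W' →
        ∃ W' ⊆ W, #W' ≤ s - 1 ∧ θ - 3 / u ≤ psi h (q + d) W' := fun W' h1 h2 h3 => by
      refine ⟨W', h1.trans hVW, by omega, le_trans ?_ h3.le⟩
      have := mul_le_mul_of_nonneg_left a2 (by positivity : (0 : ℝ) ≤ 2 / u)
      have e : (3 : ℝ) / u = 1 / u + 2 / u := by ring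
      linarith
    by_cases hok : ∀ W' ⊆ V, #W' < s → psi h (q + d) W' ≤ ρ * a j
    · rcases lt_or_ge (#V) s with hlt | hge
      · refine Or.inr (hW' V Subset.rfl hlt (lt_of_lt_of_le ?_ ((hVc.2.1).trans
          (psi_mono hh hq (by linarith) V))))
        exact mul_lt_of_lt_one_left a0 (sub_lt_self _ (by positivity))
      · obtain ⟨T, hT, hTV⟩ := (hA j hj).2.2 V hV hge hok
        exact Or.inl ⟨T, mem_biUnion.2 ⟨j, mem_range.2 (by omega), hT⟩, hTV.trans hVW⟩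
    · push Not at hok
      obtain ⟨W', h1, h2, h3⟩ := hok
      exact Or.inr (hW' W' h1 h2 h3)

open Classical in
/-- The last round: witnesses of size at most `512 t` are covered outright. -/
lemma final (hh : ∀ S, 0 ≤ h S) {t : ℕ} (ht : 1 ≤ t) (hD : ∀ S, h S ≠ 0 → #S ≤ 2 * t)
    {q d P θ : ℝ} (hd : 0 ≤ d) (hdq : d ≤ q) (hP : q + d ≤ P)
    (hw : psi h P ∅ ≤ 2 * t * (1 / 2) ^ (128 * t)) (hθ : 1 / 4 ≤ θ) :
    ∃ 𝒢 : Finset (Finset X), ∅ ∉ 𝒢 ∧ cost (d / 4) 𝒢 ≤ (1 / 2) ^ (4 * t) ∧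
      ∀ W, #W ≤ 512 * t → θ ≤ psi h q W → ∃ T ∈ 𝒢, T ⊆ W := by
  set u := 512 * t with hu
  have hu1 : 1 ≤ u := by omega
  have hq : 0 ≤ q := hd.trans hdq
  set a : ℕ → ℝ := fun k => θ * (1 - 1 / (u : ℝ) ^ 2) ^ k
  have ha : ∀ k ≤ u, 1 / 8 ≤ a k := fun k hk => by
    obtain ⟨h1, -⟩ := theta_pos_bounds (by linarith : 0 ≤ θ) hu1 hk
    have h3 : (1 : ℝ) / u ≤ 1 / 2 :=
      one_div_le_one_div_of_le two_pos (by exact_mod_cast (by omega : 2 ≤ u))
    refine le_trans ?_ h1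
    calc (1 : ℝ) / 8 = 1 / 4 * (1 / 2) := by norm_num
      _ ≤ θ * (1 - 1 / u) := mul_le_mul hθ (by linarith) (by norm_num) (by linarith)
  have ht6 : (t : ℝ) ≤ 2 ^ t := by exact_mod_cast (Nat.lt_two_pow_self).le
  have hwsmall : 2 * (t : ℝ) * (1 / 2) ^ (128 * t) ≤ (1 / 2) ^ (126 * t) := by
    calc 2 * (t : ℝ) * (1 / 2) ^ (128 * t) ≤ 2 ^ t * 2 ^ t * (1 / 2) ^ (128 * t) := by
          refine mul_le_mul_of_nonneg_right (mul_le_mul ?_ ht6 (by positivity) (by positivity))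
            (by positivity)
          exact le_self_pow₀ one_le_two (by omega)
      _ = (1 / 2) ^ (126 * t) := by
          rw [show 128 * t = t + t + 126 * t by ring, pow_add, pow_add, ← mul_assoc,
            show (2 : ℝ) ^ t * 2 ^ t * ((1 / 2) ^ t * (1 / 2) ^ t) =
              (2 ^ t * (1 / 2) ^ t) * (2 ^ t * (1 / 2) ^ t) by ring, ← mul_pow]
          norm_num
  set ρ : ℝ := 8 * (1 / 2) ^ (126 * t) with hρ
  have hρ1 : ρ ≤ 1 := by
    have : ((1 : ℝ) / 2) ^ (126 * t) ≤ (1 / 2) ^ 3 :=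
      pow_le_pow_of_le_one (by norm_num) (by norm_num) (by omega)
    rw [hρ]; norm_num at this ⊢; linarith
  have hlev : ∀ k : ℕ, ∃ 𝒢 : Finset (Finset X), k ≤ u → ∅ ∉ 𝒢 ∧
      cost (d / 4) 𝒢 ≤
        4 * (((2 * t + 2) * (2 * u ^ 3 + 1) + (5 * t + 11) : ℕ) : ℝ) *
            ((1 / 4) ^ 1 * (ρ * (2 * u ^ 3 : ℕ))) + (1 / 2) ^ (5 * t + 11) ∧
      ∀ V ∈ cores h q u (a k), 1 ≤ #V → (∀ W ⊆ V, #W < 1 → psi h (q + d) W ≤ ρ * a k) →
        ∃ T ∈ 𝒢, T ⊆ V := fun k => by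
    by_cases hk : k ≤ u
    · obtain ⟨𝒢, h⟩ := level hh hD hd hdq (lt_of_lt_of_le (by norm_num) (ha k hk))
        (by positivity : 0 ≤ ρ) hρ1 hu1 le_rfl (5 * t + 11)
      exact ⟨𝒢, fun _ => h⟩
    · exact ⟨∅, fun h => absurd h hk⟩
  choose A hA using hlev
  refine ⟨(range (u + 1)).biUnion A, ?_, ?_, fun W hW hθW => ?_⟩
  · simp only [mem_biUnion, mem_range, not_exists, not_and]
    exact fun k hk => (hA k (by omega)).1
  · refine (cost_biUnion_le (by linarith) _ _).trans ?_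
    refine (sum_le_card_nsmul _ _ _ fun k hk =>
      (hA k (Nat.lt_succ_iff.1 (mem_range.1 hk))).2.1).trans ?_
    rw [card_range, nsmul_eq_mul]
    have hN := N_le (D := 2 * t) (e := 5 * t + 11) hu1 (by omega) (by omega)
    have hu9 : (u : ℝ) ≤ 2 ^ (9 + t) := by
      rw [hu, pow_add]; push_cast; norm_num; linarith
    have hu' : (1 : ℝ) ≤ u := by exact_mod_cast hu1
    calc ((u + 1 : ℕ) : ℝ) * (4 * (((2 * t + 2) * (2 * u ^ 3 + 1) + (5 * t + 11) : ℕ) : ℝ) *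
            ((1 / 4) ^ 1 * (ρ * (2 * u ^ 3 : ℕ))) + (1 / 2) ^ (5 * t + 11))
        ≤ (2 * u) * (4 * (4 * (u : ℝ) ^ 4) * ((1 / 4) ^ 1 * (ρ * (2 * (u : ℝ) ^ 3))) +
            (1 / 2) ^ (5 * t + 11)) := by
          refine mul_le_mul (by push_cast; linarith) ?_ (by positivity) (by positivity)
          push_cast at hN ⊢
          gcongr
      _ = 128 * (u : ℝ) ^ 8 * (1 / 2) ^ (126 * t) + 2 * u * (1 / 2) ^ (5 * t + 11) := by
          rw [hρ]; ring
      _ ≤ 2 ^ 7 * (2 ^ (9 + t)) ^ 8 * (1 / 2) ^ (126 * t) +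
            2 * 2 ^ (9 + t) * (1 / 2) ^ (5 * t + 11) := by
          gcongr; norm_num
      _ ≤ (1 / 2) ^ (4 * t + 1) + (1 / 2) ^ (4 * t + 1) := by
          have key : ∀ a b c : ℕ, a + c ≤ b → (2 : ℝ) ^ a * (1 / 2) ^ b ≤ (1 / 2) ^ c := by
            intro a b c habc
            calc (2 : ℝ) ^ a * (1 / 2) ^ b ≤ 2 ^ a * (1 / 2) ^ (a + c) :=
                  mul_le_mul_of_nonneg_left
                    (pow_le_pow_of_le_one (by norm_num) (by norm_num) habc) (by positivity)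
              _ = (1 / 2) ^ c := by rw [pow_add, ← mul_assoc, ← mul_pow]; norm_num
          refine add_le_add ?_ ?_
          · rw [← pow_mul, ← pow_add]; exact key _ _ _ (by omega)
          · rw [← pow_succ']; exact key _ _ _ (by omega)
      _ = (1 / 2) ^ (4 * t) := by ring
  · obtain ⟨j, hj, V, hVW, hV⟩ := exists_core hh hq W 0 (by omega) (by simpa using hθW)
    have hVc := (mem_filter.1 hV).2
    have a0 := ha j hj
    have hE : psi h (q + d) ∅ ≤ (1 / 2) ^ (126 * t) :=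
      ((psi_mono hh (by linarith) hP ∅).trans hw).trans hwsmall
    have hne : 1 ≤ #V := by
      rcases V.eq_empty_or_nonempty with rfl | hne
      · exfalso
        have := hVc.2.1.trans (psi_mono hh hq (by linarith : q ≤ q + d) ∅)
        have : ((1 : ℝ) / 2) ^ (126 * t) < 1 / 8 := by
          calc ((1 : ℝ) / 2) ^ (126 * t) ≤ (1 / 2) ^ 4 :=
                pow_le_pow_of_le_one (by norm_num) (by norm_num) (by omega)
            _ < _ := by norm_num
        linarith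
      · exact card_pos.2 hne
    obtain ⟨T, hT, hTV⟩ := (hA j hj).2.2 V hV hne fun W' _ hW' => by
      rw [Nat.lt_one_iff, card_eq_zero] at hW'
      subst hW'
      refine hE.trans ?_
      have := mul_le_mul_of_nonneg_left a0 (by positivity : (0 : ℝ) ≤ ρ)
      rw [hρ] at this ⊢
      linarith
    exact ⟨T, mem_biUnion.2 ⟨j, mem_range.2 (by omega), hT⟩, hTV.trans hVW⟩

open Classical in
/-- Bound on the remaining loss. -/
noncomputable def slack (t u : ℕ) : ℝ := if u ≤ 512 * t then 0 else 2 / (512 * t : ℕ) - 1 / u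

lemma slack_nonneg {t : ℕ} (ht : 1 ≤ t) (u : ℕ) : 0 ≤ slack t u := by
  rw [slack]
  split_ifs with hu
  · rfl
  have hU : (0 : ℝ) < (512 * t : ℕ) := by exact_mod_cast (by omega : 0 < 512 * t)
  have := one_div_le_one_div_of_le hU (show ((512 * t : ℕ) : ℝ) ≤ u by exact_mod_cast (le_of_not_ge hu))
  have h2 : (2 : ℝ) / (512 * t : ℕ) = 2 * (1 / (512 * t : ℕ)) := by ring
  have : (0 : ℝ) < 1 / (512 * t : ℕ) := by positivity
  linarith

open Classical in
/-- The descent. -/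
theorem descend (hh : ∀ S, 0 ≤ h S) {t : ℕ} (ht : 1 ≤ t) (hD : ∀ S, h S ≠ 0 → #S ≤ 2 * t)
    {d P : ℝ} (hd : 0 ≤ d) (hw : psi h P ∅ ≤ 2 * t * (1 / 2) ^ (128 * t)) :
    ∀ (k u : ℕ) (q θ : ℝ), u ≤ max (512 * t) (32 * tower k) → d ≤ q →
      q + (k + 1) * d ≤ P → 1 / 4 + 3 * slack t u ≤ θ → θ ≤ 1 →
      ∃ 𝒢 : Finset (Finset X), ∅ ∉ 𝒢 ∧ cost (d / 4) 𝒢 ≤ (1 / 2) ^ (4 * t) * (1 + slack t u) ∧
        ∀ W, #W ≤ u → θ ≤ psi h q W → ∃ T ∈ 𝒢, T ⊆ W := by
  intro k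
  induction k with
  | zero =>
    intro u q θ hu hdq hP hθ _
    have hu' : u ≤ 512 * t := by simp [tower] at hu; omega
    obtain ⟨𝒢, h0, hc, hcov⟩ := final (θ := θ) hh ht hD hd hdq (by simpa using hP) hw
      (by linarith [slack_nonneg ht u])
    exact ⟨𝒢, h0, hc.trans (le_mul_of_one_le_right (by positivity)
      (by linarith [slack_nonneg ht u])), fun W hW => hcov W (hW.trans hu')⟩
  | succ k ih =>
    intro u q θ hu hdq hP hθ hθ1
    push_cast at hP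
    by_cases hu' : u ≤ 512 * t
    · obtain ⟨𝒢, h0, hc, hcov⟩ := final (θ := θ) hh ht hD hd hdq
        (by nlinarith) hw (by linarith [slack_nonneg ht u])
      exact ⟨𝒢, h0, hc.trans (le_mul_of_one_le_right (by positivity)
        (by linarith [slack_nonneg ht u])), fun W hW => hcov W (hW.trans hu')⟩
    have hU : (0 : ℝ) < (512 * t : ℕ) := by exact_mod_cast (by omega : 0 < 512 * t)
    have hUu : ((512 * t : ℕ) : ℝ) ≤ u := by exact_mod_cast (le_of_not_ge hu')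
    have hupos : (0 : ℝ) < u := hU.trans_le hUu
    have hs : slack t u = 2 / (512 * t : ℕ) - 1 / u := if_neg hu'
    set u' := target t u - 1 with hu'def
    have hu'u : u' ≤ max (512 * t) (32 * tower k) :=
      target_tower ht (by rw [tower] at hu; omega)
    have hs' : slack t u' ≤ 2 / (512 * t : ℕ) - 2 / u := by
      rw [slack]
      split_ifs with hcase
      · exact sub_nonneg.2 (div_le_div_of_nonneg_left zero_le_two hU hUu)
      · have h2 : 2 * u' ≤ u := by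
          have := target_le ht (le_of_not_ge hu')
          omega
        have h2' : 2 * (u' : ℝ) ≤ u := by exact_mod_cast h2
        have hu'pos : (0 : ℝ) < u' := by exact_mod_cast (by omega : 0 < u')
        have : 2 / (u : ℝ) ≤ 1 / u' := by
          rw [div_le_div_iff₀ hupos hu'pos]; linarith
        linarith
    have hθ4 : 1 / 4 ≤ θ := by linarith [slack_nonneg ht u]
    obtain ⟨𝒢₁, h1, hc1, hcov1⟩ := round hh ht hD hd hdq hθ4 hθ1 (le_of_not_ge hu')
    have e3 : (3 : ℝ) / u = 3 * (1 / u) := by ring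
    have e2 : (2 : ℝ) / u = 2 * (1 / u) := by ring
    obtain ⟨𝒢₂, h2, hc2, hcov2⟩ := ih u' (q + d) (θ - 3 / u) hu'u (by linarith)
      (by linarith) (by rw [hs] at hθ; linarith)
      (by linarith [show (0 : ℝ) ≤ 3 / u from div_nonneg (by norm_num) hupos.le])
    refine ⟨𝒢₁ ∪ 𝒢₂, by simp [h1, h2], ?_, fun W hW hθW => ?_⟩
    · refine (cost_union_le (by linarith) _ _).trans ((add_le_add hc1 hc2).trans ?_)
      rw [hs, div_eq_mul_one_div ((1 / 2 : ℝ) ^ (4 * t)), ← mul_add]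
      exact mul_le_mul_of_nonneg_left (by linarith) (by positivity)
    · rcases hcov1 W hW hθW with ⟨T, hT, hTW⟩ | ⟨W', hW', hc', hθ'⟩
      · exact ⟨T, mem_union_left _ hT, hTW⟩
      · obtain ⟨T, hT, hTW⟩ := hcov2 W' hc' hθ'
        exact ⟨T, mem_union_right _ hT, hTW.trans hW'⟩

end Vale.Agent.P034
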