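import Mathlib
import Vale.Agent.P034.Descent

/-!
P034: from a fractional cover to a cover, by splitting the sizes dyadically.
-/

open Finset

namespace Vale.Agent.P034

variable {X : Type*} [Fintype X] [DecidableEq X]

lemma sum_quarter (M : ℕ) : ∑ i ∈ range M, ((1 : ℝ) / 2) ^ (i + 2) = 1 / 2 - (1 / 2) ^ (M + 1) := by
  induction M with
  | zero => norm_num
  | succ n ih => rw [sum_range_succ, ih]; ring

lemma sum_sixteenth (M : ℕ) :
    ∑ i ∈ range M, ((1 : ℝ) / 16) ^ (i + 1) = (1 - (1 / 16) ^ M) / 15 := by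
  induction M with
  | zero => norm_num
  | succ n ih => rw [sum_range_succ, ih]; ring

open Classical in
/-- A fractional cover at `p` gives a cover at `p / (2 ^ 131 * (R + 1))` if `|X| ≤ tower R`. -/
theorem small_of_fractional {g : Finset X → ℝ} (hg : ∀ S, 0 ≤ g S) {p : ℝ} (hp : 0 ≤ p)
    (hw : ∑ S, g S * p ^ #S ≤ 1 / 2) {R : ℕ} (hR : Fintype.card X ≤ tower R) :
    ∃ 𝒢 : Finset (Finset X), ∑ T ∈ 𝒢, (p / (2 ^ 131 * ((R : ℝ) + 1))) ^ #T ≤ 1 / 2 ∧
      ∀ H, 1 ≤ ∑ S ∈ H.powerset, g S → ∃ T ∈ 𝒢, T ⊆ H := by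
  set P := p * (1 / 2) ^ 128 with hPdef
  set d := P / (R + 2) with hd'
  have hP : 0 ≤ P := by positivity
  have hR2 : (0 : ℝ) < R + 2 := by positivity
  have hd : 0 ≤ d := div_nonneg hP hR2.le
  set h : ℕ → Finset X → ℝ := fun i S =>
    if S ≠ ∅ ∧ Nat.log 2 #S = i then g S * 2 ^ (i + 2) else 0
  have hh : ∀ i S, 0 ≤ h i S := fun i S => by
    simp only [h]; split_ifs
    · exact mul_nonneg (hg S) (by positivity)
    · exact le_rfl
  have hsupp : ∀ i S, h i S ≠ 0 → S ≠ ∅ ∧ Nat.log 2 #S = i := fun i S hS => by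
    by_contra hc; exact hS (if_neg hc)
  have hD : ∀ i S, h i S ≠ 0 → #S ≤ 2 * 2 ^ i := fun i S hS => by
    obtain ⟨-, hl⟩ := hsupp i S hS
    have := Nat.lt_pow_succ_log_self one_lt_two (#S)
    rw [hl, pow_succ'] at this
    exact this.le
  have hpsi : ∀ i, psi (h i) P ∅ ≤ 2 * ((2 ^ i : ℕ) : ℝ) * (1 / 2) ^ (128 * 2 ^ i) := by
    intro i
    calc psi (h i) P ∅ = ∑ S, h i S * P ^ #S := by simp [psi]
      _ ≤ ∑ S, (2 : ℝ) ^ (i + 2) * (1 / 2) ^ (128 * 2 ^ i) * (g S * p ^ #S) := by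
          refine sum_le_sum fun S _ => ?_
          rcases eq_or_ne (h i S) 0 with h0 | h0
          · rw [h0, zero_mul]
            exact mul_nonneg (by positivity) (mul_nonneg (hg S) (pow_nonneg hp _))
          obtain ⟨hne, hl⟩ := hsupp i S h0
          have hi : 2 ^ i ≤ #S := hl ▸ Nat.pow_log_le_self 2 (by simpa using hne)
          have : (((1 : ℝ) / 2) ^ 128) ^ #S ≤ ((1 / 2) ^ 128) ^ (2 ^ i) :=
            pow_le_pow_of_le_one (by positivity) (by norm_num) hi
          rw [show h i S = g S * 2 ^ (i + 2) from if_pos ⟨hne, hl⟩, hPdef, mul_pow, pow_mul]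
          have hpos : 0 ≤ g S * 2 ^ (i + 2) * p ^ #S :=
            mul_nonneg (mul_nonneg (hg S) (by positivity)) (pow_nonneg hp _)
          have := mul_le_mul_of_nonneg_left this hpos
          linarith
      _ ≤ (2 : ℝ) ^ (i + 2) * (1 / 2) ^ (128 * 2 ^ i) * (1 / 2) := by
          rw [← mul_sum]; exact mul_le_mul_of_nonneg_left hw (by positivity)
      _ = _ := by push_cast; ring
  have hslack : ∀ i u, 1 / 4 + 3 * slack (2 ^ i) u ≤ 1 ∧ 1 + slack (2 ^ i) u ≤ 2 := by
    intro i u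
    have h1 : slack (2 ^ i) u ≤ 1 / 4 := by
      rw [slack]
      split_ifs
      · norm_num
      · have hU : (8 : ℝ) ≤ (512 * 2 ^ i : ℕ) := by
          exact_mod_cast (le_mul_of_le_of_one_le (by norm_num) Nat.one_le_two_pow)
        have := div_le_div_of_nonneg_left (zero_le_two : (0 : ℝ) ≤ 2) (by norm_num) hU
        have : (0 : ℝ) ≤ 1 / u := by positivity
        linarith
    constructor <;> linarith
  have hstep : ∀ i : ℕ, ∃ 𝒢 : Finset (Finset X),
      cost (d / 4) 𝒢 ≤ 2 * (1 / 16) ^ (i + 1) ∧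
        ∀ H, 1 ≤ ∑ S ∈ H.powerset, h i S → ∃ T ∈ 𝒢, T ⊆ H := by
    intro i
    have hbig : d + ((R : ℕ) + 1 : ℝ) * d ≤ P := by
      rw [hd']; field_simp; linarith
    obtain ⟨𝒢, -, hc, hcov⟩ := descend (hh i) Nat.one_le_two_pow (hD i) hd (hpsi i) R
      (Fintype.card X) d 1 (by omega) le_rfl hbig (hslack i _).1 le_rfl
    refine ⟨𝒢, hc.trans ?_, fun H hH => hcov H (card_le_univ H) (hH.trans ?_)⟩
    · rw [mul_comm]
      refine mul_le_mul (hslack i _).2 ?_ (by positivity) zero_le_two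
      rw [pow_mul, show ((1 : ℝ) / 2) ^ 4 = 1 / 16 by norm_num]
      exact pow_le_pow_of_le_one (by norm_num) (by norm_num) Nat.lt_two_pow_self
    · refine le_trans (sum_le_sum fun S hS => ?_)
        (sum_le_sum_of_subset_of_nonneg (subset_univ _) fun S _ _ =>
          mul_nonneg (hh i S) (pow_nonneg hd _))
      rw [sdiff_eq_empty_iff_subset.2 (mem_powerset.1 hS), card_empty, pow_zero, mul_one]
  choose A hA using hstep
  set M := Fintype.card X + 1
  refine ⟨(range M).biUnion A, ?_, fun H hH => ?_⟩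
  · set c := p / (2 ^ 131 * ((R : ℝ) + 1))
    have hc0 : 0 ≤ c := by positivity
    have hcd : c ≤ d / 4 := by
      simp only [c, hd', hPdef]
      rw [one_div_pow, mul_one_div, div_div, div_div,
        show (2 : ℝ) ^ 128 * (((R : ℝ) + 2) * 4) = 2 ^ 130 * ((R : ℝ) + 2) by ring]
      refine div_le_div_of_nonneg_left hp (by positivity) ?_
      have : (2 : ℝ) ^ 131 = 2 ^ 130 * 2 := by ring
      rw [this, mul_assoc]
      exact mul_le_mul_of_nonneg_left (by linarith) (by positivity)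
    calc cost c ((range M).biUnion A) ≤ cost (d / 4) ((range M).biUnion A) :=
          sum_le_sum fun T _ => pow_le_pow_left₀ hc0 hcd _
      _ ≤ ∑ i ∈ range M, cost (d / 4) (A i) := cost_biUnion_le (by linarith) _ _
      _ ≤ ∑ i ∈ range M, 2 * (1 / 16) ^ (i + 1) := sum_le_sum fun i _ => (hA i).1
      _ ≤ 1 / 2 := by
          rw [← mul_sum, sum_sixteenth]
          have : (0 : ℝ) ≤ (1 / 16) ^ M := by positivity
          linarith
  · suffices ∃ i ∈ range M, 1 ≤ ∑ S ∈ H.powerset, h i S by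
      obtain ⟨i, hi, h1⟩ := this
      obtain ⟨T, hT, hTH⟩ := (hA i).2 H h1
      exact ⟨T, mem_biUnion.2 ⟨i, hi, hT⟩, hTH⟩
    by_contra hc
    push Not at hc
    have hsplit : ∑ S ∈ H.powerset, g S ≤
        g ∅ + ∑ i ∈ range M, ∑ S ∈ H.powerset, h i S * (1 / 2) ^ (i + 2) := by
      rw [sum_comm, ← add_sum_erase _ _ (empty_mem_powerset H)]
      refine add_le_add le_rfl ((sum_le_sum fun S hS => ?_).trans
        (sum_le_sum_of_subset_of_nonneg (erase_subset _ _) fun S _ _ =>
          sum_nonneg fun i _ => mul_nonneg (hh i S) (by positivity)))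
      have hne := (mem_erase.1 hS).1
      refine le_trans (le_of_eq ?_) (single_le_sum
        (fun i _ => mul_nonneg (hh i S) (by positivity)) (mem_range.2 (Nat.lt_succ_of_le
          ((Nat.log_le_self 2 #S).trans (card_le_univ S)))))
      simp only [h, ne_eq, hne, not_false_eq_true, and_self, if_true]
      rw [mul_assoc, ← mul_pow]
      norm_num
    have h0 : g ∅ ≤ 1 / 2 := by
      have := (single_le_sum (fun S _ => mul_nonneg (hg S) (pow_nonneg hp _))
        (mem_univ (∅ : Finset X))).trans hw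
      simpa using this
    have hlt : ∑ i ∈ range M, ∑ S ∈ H.powerset, h i S * (1 / 2 : ℝ) ^ (i + 2) <
        ∑ i ∈ range M, (1 / 2 : ℝ) ^ (i + 2) := by
      refine sum_lt_sum_of_nonempty (nonempty_range_iff.2 (Nat.succ_ne_zero _)) fun i hi => ?_
      rw [← sum_mul]
      exact mul_lt_of_lt_one_left (by positivity) (hc i hi)
    rw [sum_quarter] at hlt
    have : (0 : ℝ) < (1 / 2) ^ (M + 1) := by positivity
    linarith

end Vale.Agent.P034
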